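import Vale.Agent.P178.All.Main

/-!
Boundaries in the Gersten complexes of a regular local ring of arbitrary characteristic, in
every codimension.
-/

namespace Vale.Agent.Results.P178.AllCodimensions

open Vale.Agent.P178.Gersten IsLocalRing

universe u

theorem result (A : Type u) [CommRing A] [IsRegularLocalRing A] :
    -- the last terms, dimension `n + 2 ≥ 3`
    (∀ n m : ℕ, 1 ≤ n → m = n + 1 → ringKrullDim A = n + 2 →
      (IsAdicComplete (maximalIdeal A) A ∨ ∀ P : Ideal A, P.IsPrime → P.height = m →
        Module.Finite (A ⧸ P) (integralClosure (A ⧸ P) (FractionRing (A ⧸ P)))) →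
      TailExact A n m) ∧
    -- every codimension `c + 2`
    (∀ (c : ℕ) (P : Pt A (c + 2)), P.P ≠ closedPoint A →
      ∀ (R : Type u) [CommRing R] [Algebra A R] [Module.Finite A R] (j : R →+* kappa P.P),
        Function.Injective j → (∀ a : A, j (algebraMap A R a) = toKappa P.P a) →
        IsRegularRing R ∨ IsLci A R (c + 2) → IsHit A c P R j) := by
  refine ⟨fun n m hn hm hdim hA => ?_, fun c P hP R _ _ _ j hj hjA hR =>
    Vale.Agent.P178.All.all_codim A c P hP R j hj hjA hR⟩
  subst hm
  have hN := Vale.Agent.P178.finite_hyp hdim hA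
  exact ⟨Vale.Agent.P178.tail_K₁ hdim, Vale.Agent.P178.tail_K₀ hdim,
    Vale.Agent.P178.tail_middle hn hdim hN, Vale.Agent.P178.tail_cycles hn hdim hN⟩

end Vale.Agent.Results.P178.AllCodimensions
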