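import Vale.Agent.P178.Two.Final
import Vale.Agent.P178.Two.Tame

/-!
Exactness of the Gersten complexes of Milnor K-groups, in every degree, at the last two terms for
regular local rings of dimension two with arbitrary residue field.
-/

namespace Vale.Agent.Results.P178.DimTwo

open Vale.Agent.P178.Two

universe u

theorem result (A F : Type u) [CommRing A] [IsRegularLocalRing A] [Field F] [Algebra A F]
    [IsFractionRing A F] (hdim : ringKrullDim A = 2) : SurfaceExact A F := by
  have : IsDomain A := Vale.Agent.P178.isDomain_of_isRegularLocalRing A
  refine ⟨fun P n z => ?_, fun m => ⟨surface_quot F hdim m, surface_ker F hdim m⟩⟩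
  obtain ⟨q, hq0, hq⟩ := hprin_of_regular hdim P
  exact existsUnique_res F P.P hq0 hq n z

end Vale.Agent.Results.P178.DimTwo
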