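import Vale.Agent.P178.All.Main2
import Vale.Agent.P178.H270.Gra

/-!
Exactness of the Gersten complexes of a regular local ring of arbitrary characteristic:
dimension two (Milnor K-groups in every degree), and the last terms in dimension at least three.
-/

namespace Vale.Agent.Results.P178.SurfaceExact

open Vale.Agent.P178.Gersten IsLocalRing

universe u

theorem result (A : Type u) [CommRing A] [IsRegularLocalRing A] :
    -- dimension two
    (ringKrullDim A = 2 → Vale.Agent.P178M.SurfaceExact A) ∧
    -- the last terms, dimension `n + 2 ≥ 3`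
    (∀ n m : ℕ, 1 ≤ n → m = n + 1 → ringKrullDim A = n + 2 →
      (IsAdicComplete (maximalIdeal A) A ∨ ∀ P : Ideal A, P.IsPrime → P.height = m →
        Module.Finite (A ⧸ P) (integralClosure (A ⧸ P) (FractionRing (A ⧸ P)))) →
      TailExact A n m ∧ K₂Exact A n m) ∧
    -- every codimension `c + 2`
    (∀ (c : ℕ) (P : Pt A (c + 2)), P.P ≠ closedPoint A →
      ∀ (R : Type u) [CommRing R] [Algebra A R] [Module.Finite A R] (j : R →+* kappa P.P),
        Function.Injective j → (∀ a : A, j (algebraMap A R a) = toKappa P.P a) →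
        IsRegularRing R ∨ IsLci A R (c + 2) → IsHit₂ A c P R j) := by
  refine ⟨fun hdim => ?_, fun n m hn hm hdim hA => ?_, fun c P hP R _ _ _ j hj hjA hR =>
    Vale.Agent.P178.All.all_codim₂ A c P hP R j hj hjA hR⟩
  · have : IsDomain A := Vale.Agent.P178.isDomain_of_isRegularLocalRing A
    exact Vale.Agent.P178M.surfaceExact hdim
  · subst hm
    have hN := Vale.Agent.P178.finite_hyp hdim hA
    exact ⟨⟨Vale.Agent.P178.tail_K₁ hdim, Vale.Agent.P178.tail_K₀ hdim,
      Vale.Agent.P178.tail_middle hn hdim hN, Vale.Agent.P178.tail_cycles hn hdim hN⟩,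
      Vale.Agent.P178.All.k₂Exact A hn hdim hN⟩

end Vale.Agent.Results.P178.SurfaceExact
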